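import Vale.Agent.P167.H704.Shp.Hist

/-!
# P167, general `q`, [SHP-ASM] (9): `B_shp` from the boxes

`b_shp_of` : `B_shp` from `S_side` (450), `S_inp` (boxes (4) - (8)), `S_pf` (756).
-/

set_option autoImplicit false

namespace Vale.Agent.P167.H704.Shp

open Set Metric Filter Topology
open Vale.Agent.P153.R2
open Vale.Agent.P153.R2.R1 (Conf dinv)
open Vale.Agent.P153.R2.L1 (HH)
open Vale.Agent.P164 (loewnerDomain)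
open Vale.Agent.P167.QT
open Vale.Agent.P167.SLE (bq)
open Vale.Agent.P167.H192 (ro)
open Vale.Agent.P167.H411 (exn Set6)
open Vale.Agent.P167.H756 (FD HConf)
open Vale.Agent.P167.H446.G
open Vale.Agent.P167.H653.St (SatH sat_te hconf_psr)
open Vale.Agent.P167.H450.Out (Pm Mk IsMk xre mk_of OD)
open Vale.Agent.P167.SG (Bf Ug ρb bf_mono ρb_lt)

theorem exists_X2 {xB : ℝ} (hB : xB < 1) (X : ℝ) :
    ∃ X2, X ≤ X2 ∧ 2 ≤ X2 ∧ xB ≤ (X2 / 2 - 1) / (X2 / 2 + 1) := by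
  refine ⟨max X (max 2 (4 / (1 - xB))), le_max_left _ _,
    (le_max_left _ _).trans (le_max_right _ _), ?_⟩
  set X2 : ℝ := max X (max 2 (4 / (1 - xB))) with hX2
  have h1 : 4 / (1 - xB) ≤ X2 := (le_max_right _ _).trans (le_max_right _ _)
  have h2 : 2 ≤ X2 := (le_max_left _ _).trans (le_max_right _ _)
  rw [div_le_iff₀ (by linarith)] at h1
  rw [le_div_iff₀ (by linarith)]
  nlinarith

section

variable {Φ : (ℝ × ℝ) ≃ₜ (ℝ × ℝ)} {ψ : ℂ → ℂ} {δ : ℕ → ℝ} {N k : ℕ → ℕ}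
  {p : ∀ n, ZMod (N n) → ℤ × ℤ} {S : ℕ → Finset (ℤ × ℤ)} {ψn : ℕ → ℂ → ℂ}

/-- The last part: all the constants are fixed. -/
theorem ev_of (H : Set6 Φ ψ δ N k p S ψn) {C : Cst} {K : Kst} (hOk : K.Ok C) {Rd cd Y : ℝ}
    (hRd : 0 < Rd)
    (hconf : ∀ᶠ n in atTop, ∀ v₀ : ℤ × ℤ, HConf Rd cd Y (psr (δ n) v₀ (ψn n)))
    (hB : 2 * (Rd + K.rc) + C.Ld + 200 ≤ C.B) (hX22 : 2 ≤ K.X2) {rc₀ X4₀ rd₀ X6₀ : ℝ}
    (hrc₀ : K.rc ≤ rc₀) (hX4₀ : X4₀ ≤ K.X4) (hrd₀ : K.rd ≤ rd₀) (hX6₀ : X6₀ ≤ K.X6)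
    (hk2 : ∀ᶠ n in atTop, ∀ v₀ : ℤ × ℤ, v₀.2 = (ro (p n (k n))).2 → ∀ z ∈ HH,
      psr (δ n) v₀ (ψn n) z ∈ Bf (H446.G.dl (δ n) * (((ro (p n (k n))).1 - v₀.1 : ℤ) : ℝ)) rc₀ →
        K.X2 ≤ ‖z‖)
    (hk4 : ∀ᶠ n in atTop, ∀ v₀ : ℤ × ℤ, v₀.2 = (ro (p n (k n))).2 → ∀ z ∈ HH, X4₀ ≤ ‖z‖ →
      psr (δ n) v₀ (ψn n) z ∈
        Bf (H446.G.dl (δ n) * (((ro (p n (k n))).1 - v₀.1 : ℤ) : ℝ)) (K.rc / 8))
    (hk5 : ∀ᶠ n in atTop, ∀ v₀ : ℤ × ℤ, v₀.2 = (ro (p n (k n))).2 → ∀ z ∈ HH,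
      psr (δ n) v₀ (ψn n) z ∈ Bf (H446.G.dl (δ n) * (((ro (p n (k n))).1 - v₀.1 : ℤ) : ℝ)) rd₀ →
        K.X5 ≤ ‖z‖)
    (hk6 : ∀ᶠ n in atTop, ∀ v₀ : ℤ × ℤ, v₀.2 = (ro (p n (k n))).2 → ∀ z ∈ HH, X6₀ ≤ ‖z‖ →
      psr (δ n) v₀ (ψn n) z ∈
        Bf (H446.G.dl (δ n) * (((ro (p n (k n))).1 - v₀.1 : ℤ) : ℝ)) (K.rd / 2))
    {r₁ : ℝ} (hr₁0 : 0 < r₁) (hr₁ : 2 * K.r ≤ r₁)
    (hmk : MkAll (C.T + 1) (C.R + 1) Rd cd Y K.X1 K.X3 K.X4 K.X5 K.X6 K.rf (K.rc / 2) K.rd K.h₁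
      K.a₀ K.b₀ K.m K.t₁ K.κ₀ r₁)
    {s : ℝ} (hs : 0 < s) (hs1 : 100 * s ≤ C.m) (hs2 : 512 * s ≤ K.rc) (hs3 : s ≤ 1)
    (hsat : ∀ᶠ n in atTop, ∀ v₀ : ℤ × ℤ, v₀.2 = (ro (p n (k n))).2 →
      ∃ (Gt : Set ℂ) (x₁ : ℂ) (κ' : Type) (_ : Finite κ') (Th : κ' → Set ℂ),
        ∀ (A : Hst) (j : ℕ), Bef (exn δ N k p S ψn n) C.T C.R A j → ∀ c : Bool,
          SatH (C.T + 1) (C.R + 1) (xre K.X3) K.xB K.τ K.κ K.x' K.xc K.ε K.η K.e K.ν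
            K.X1 K.X3 δ N k p S ψn n v₀ (rS s (δ n)) (rR K.r (δ n)) (2 * K.r)
            (20 * (100 * s)) (2 * K.r) (lb s (δ n)) (20 * (100 * s))
            (H446.G.dl (δ n) * (((ro (p n (k n))).1 - v₀.1 : ℤ) : ℝ)) K.rf K.cg
            (3 * H446.G.dl (δ n)) Gt x₁ Th A j c ∧
          SG.Te (psr (δ n) v₀ (ψn n) ''
              loewnerDomain ((exn δ N k p S ψn n).W A) ((exn δ N k p S ψn n).c A j))
            (Sum.elim (H397.K.Kf (p n) (k n) (S n) A j (δ n) c (rS s (δ n)) (rR K.r (δ n)) v₀) Th)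
            (fun i => i.isRight = true)
            (H446.G.dl (δ n) * (((ro (p n (k n))).1 - v₀.1 : ℤ) : ℝ)) (5 * K.rf / 8)
            (3 * K.rf / 4))
    (hside : ∀ᶠ n in atTop, ∀ (A : Hst) (j : ℕ), Bef (exn δ N k p S ψn n) C.T C.R A j →
      ∀ (c : Bool) (O : Obj), CxM C K δ N k p S ψn s n A j c O →
        H653.St.sg c * (O.x₂ - lb s (δ n) / 2) < 0) :
    ∀ᶠ n in atTop, ∀ (A : Hst) (j : ℕ), Bef (exn δ N k p S ψn n) C.T C.R A j →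
      ∀ c : Bool, ∃ O : Obj, Cx C K δ N k p S ψn s n A j c O := by
  have hδs : ∀ᶠ n in atTop, δ n < min (s / 40) (r₁ / 3) :=
    H.appr.2.1.eventually (gt_mem_nhds (lt_min (by positivity) (by positivity)))
  filter_upwards [hsat, hk2, hk4, hk5, hk6, hconf, hδs, hside] with n g1 g2 g3 g4 g5 g6 g9 g10
  intro A j hBef c
  have hδ : 0 < δ n := (H.appr.1 n).1
  have hdl : H446.G.dl (δ n) ≤ δ n := by
    unfold H446.G.dl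
    refine div_le_self hδ.le ?_
    rw [Real.one_le_sqrt]
    norm_num
  have hδ1 : δ n < s / 40 := g9.trans_le (min_le_left _ _)
  have hδ2 : δ n < r₁ / 3 := g9.trans_le (min_le_right _ _)
  have hrow := v1_row (p n) (k n) C.Ld s (δ n)
  have hxb := xb_eq (p n) (k n) C.Ld s (δ n)
  obtain ⟨Gt, x₁, κ', hκ', Th, hST⟩ := g1 _ hrow
  obtain ⟨hS, hTe⟩ := hST A j hBef c
  rw [hxb] at hS hTe
  have hlb1 : lb s (δ n) ≤ 5 * s := by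
    have := H446.G.Nn_le hs hδ
    unfold lb
    linarith
  obtain ⟨O, hO, hO2⟩ := cx_of hOk hs hδ hκ' hS hTe
    (fun z hz hzb => g2 _ hrow z hz (by rw [hxb]; exact bf_mono hrc₀ hzb))
    (fun z hz hzb => by
      have := g3 _ hrow z hz (hX4₀.trans hzb)
      rwa [hxb] at this) hlb1 hs1 hs2 hs3 (by linarith) hRd (g6 _) hB hX22
    (fun z hz hzb => g4 _ hrow z hz (by rw [hxb]; exact bf_mono hrd₀ hzb))
    (fun z hz hzb => by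
      have := g5 _ hrow z hz (hX6₀.trans hzb)
      rwa [hxb] at this) hr₁ (by linarith) hmk
  exact ⟨O, hO2 (g10 A j hBef c O hO)⟩

/-- The constant `b₁`. -/
theorem exists_b1 (H : Set6 Φ ψ δ N k p S ψn) (hK : QE.Stair 3 Φ δ N k p S) {ρ : ℝ}
    (hρ : 0 < ρ) : ∃ b₁ : ℝ, ∀ X X' : ℝ, b₁ ≤ X → X < X' →
      dist (ψ X') (bq Φ) < dist (ψ X) (bq Φ) ∧ 0 < dist (ψ X') (bq Φ) ∧
      dist (ψ X) (bq Φ) < ρ := by
  obtain ⟨ρh, hρh, hF⟩ := halfN H.appr hK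
  obtain ⟨X₁l, hX₁l, hl1, -, hmono, -⟩ := line_all H hρh hF
  have hU' : DET.Uni ψ (bq Φ) := SLE.uni_of_uniformizer R1.i_uinj H.unif
  obtain ⟨M₀, hM₀⟩ := H756.mod_inf1 hU' hρ
  refine ⟨max X₁l |M₀|, fun X X' hX hXX => ?_⟩
  have hXa : X₁l ≤ X := (le_max_left _ _).trans hX
  have hXb : |M₀| ≤ X := (le_max_right _ _).trans hX
  have hX0 : 0 < X := hX₁l.trans_le hXa
  refine ⟨?_, ?_, ?_⟩
  · obtain ⟨-, hr⟩ := hl1 X hXa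
    obtain ⟨-, hr'⟩ := hl1 X' (by linarith)
    have h1 : (rt * ψ X).re < (rt * ψ X').re := hmono (show X ∈ Ici X₁l from hXa)
      (show X' ∈ Ici X₁l from by show X₁l ≤ X'; linarith) hXX
    linarith
  · exact dist_pos.2 (hU'.ne _ (by
      show (0 : ℝ) ≤ ((X' : ℝ) : ℂ).im
      simp))
  · rw [dist_eq_norm]
    refine hM₀ X (by simp) ?_
    rw [Complex.norm_real, Real.norm_of_nonneg hX0.le]
    linarith [le_abs_self M₀]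

end

/-- **[SHP]** from the boxes. -/
theorem b_shp_of (hSide : S_side) (hInp : S_inp) (hPf : S_pf) : B_shp := by
  intro Φ ψ δ N k p S ψn H hK T R hT hR
  obtain ⟨ρI, hρI, hInp⟩ := hInp Φ ψ δ N k p S ψn H hK T R hT hR
  obtain ⟨ρS, hρS, hSide⟩ := hSide Φ ψ δ N k p S ψn H hK T R hT hR
  obtain ⟨X1, hX1, hX1R, hX1T⟩ : ∃ X1 : ℝ, 2 ≤ X1 ∧ 8 * (R + 1) ≤ X1 ∧ 64 * (T + 1) ≤ X1 ^ 2 :=
    ⟨8 * (R + 1) + 64 * (T + 1), by linarith, by linarith, by nlinarith⟩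
  have h4R : 4 * (R + 1) ≤ X1 := by linarith
  have h16 : 16 * (T + 1) ≤ X1 ^ 2 := by linarith
  obtain ⟨rf, cg, X3, hrf, hrfρ, hcg, hX13', hsat⟩ := sat_te H hK (T := T) (R := R) (X1 := X1)
    (rm := min ρI ρS) (a := 100) hT hR.le h4R h16 (lt_min hρI hρS) (by norm_num)
  have hX13 : X1 ≤ X3 := (le_max_left _ _).trans hX13'
  have hX3 : 1 ≤ X3 := (le_max_right _ _).trans hX13'
  have hx3 : 0 < xre X3 := by
    unfold xre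
    apply div_pos <;> nlinarith
  have hx31 : xre X3 < 1 := H450.Out.xre_lt X3
  obtain ⟨xB, hxB1, hxB2⟩ : ∃ xB : ℝ, xre X3 < xB ∧ xB < 1 := exists_between hx31
  obtain ⟨X2, hX12, hX22, hxB3⟩ := exists_X2 hxB2 X1
  obtain ⟨rc₀, hrc₀, hk2⟩ := H918.k3_row H X2
  obtain ⟨rc, hrc, hrc1, hrc2⟩ : ∃ rc : ℝ, 0 < rc ∧ rc ≤ rc₀ ∧ 16 * rc ≤ rf :=
    ⟨min rc₀ (rf / 16), by positivity, min_le_left _ _, by
      have := min_le_right rc₀ (rf / 16)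
      linarith⟩
  obtain ⟨X4₀, hk4⟩ := near_row H hK (r := rc / 8) (by positivity)
  obtain ⟨X4, hX34, hX4₀⟩ : ∃ X4 : ℝ, X3 ≤ X4 ∧ X4₀ ≤ X4 := ⟨max X3 X4₀, by simp, by simp⟩
  have hX41 : 1 ≤ X4 := hX3.trans hX34
  -- `b₁`
  obtain ⟨b₁l, hb₁l⟩ := exists_b1 H hK (show 0 < rc / 16 by positivity)
  refine ⟨b₁l, fun X X' hX hXX Y hY0 hY hY2 => ?_⟩
  obtain ⟨hLL, hLd, hLc⟩ := hb₁l X X' hX hXX
  obtain ⟨Rb, hRb, hPf⟩ := hPf Φ ψ δ N k p S ψn H hK T R Y hT hR hY0 hY hY2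
  obtain ⟨Rd, hRd, cd, hcd, hconf⟩ := hconf_psr H hY0
  generalize hLce : dist (ψ X) (bq Φ) = Lc at hLL hLc
  generalize hLde : dist (ψ X') (bq Φ) = Ld at hLL hLd
  obtain ⟨m₀, hm₀, hm1, hm2, hm3⟩ : ∃ m₀ : ℝ, 0 < m₀ ∧ 8 * m₀ ≤ Ld ∧ Ld + 8 * m₀ ≤ Lc ∧
      128 * m₀ ≤ rc := by
    refine ⟨min (Ld / 8) (min ((Lc - Ld) / 8) (rc / 128)), ?_, ?_, ?_, ?_⟩
    · refine lt_min (by linarith) (lt_min (by linarith) (by linarith))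
    · have := min_le_left (Ld / 8) (min ((Lc - Ld) / 8) (rc / 128))
      linarith
    · have := (min_le_right (Ld / 8) (min ((Lc - Ld) / 8) (rc / 128))).trans (min_le_left _ _)
      linarith
    · have := (min_le_right (Ld / 8) (min ((Lc - Ld) / 8) (rc / 128))).trans (min_le_right _ _)
      linarith
  refine ⟨m₀, 2 * (Rd + rc) + Ld + 200, Rb, hm₀, hRb, fun m hm hmm => ?_⟩
  have hSm : (⟨T, R, X, X', Lc, Ld, m, 2 * (Rd + rc) + Ld + 200, Y, Rb⟩ : Cst).Sm (rc / 8) := by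
    refine ⟨hm, ?_, ?_, ?_⟩
    · show 8 * m ≤ Ld
      linarith
    · show Ld + 8 * m ≤ Lc
      linarith
    · show Lc + 8 * m ≤ rc / 8
      linarith
  intro h hh
  -- the mark
  have hx4 : (xre X4) ^ 2 < 1 := by
    have h1 := H450.Out.xre_nonneg hX41
    have h2 := H450.Out.xre_lt X4
    nlinarith
  obtain ⟨h₁, hh₁, hh1a, hh1b⟩ : ∃ h₁ : ℝ, 0 < h₁ ∧ 8 * h₁ ≤ h ∧ 32 * h₁ ≤ rc :=
    ⟨min (h / 8) (rc / 32), by positivity, by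
      have := min_le_left (h / 8) (rc / 32)
      linarith, by
      have := min_le_right (h / 8) (rc / 32)
      linarith⟩
  obtain ⟨b₁, hb₁, hb1a, hb1b⟩ : ∃ b₁ : ℝ, 0 < b₁ ∧ 4 * b₁ ≤ h ∧ (xre X4) ^ 2 < 1 - 2 * b₁ := by
    refine ⟨min (h / 4) ((1 - (xre X4) ^ 2) / 4), ?_, ?_, ?_⟩
    · refine lt_min (by linarith) (by linarith)
    · have := min_le_left (h / 4) ((1 - (xre X4) ^ 2) / 4)
      linarith
    · have := min_le_right (h / 4) ((1 - (xre X4) ^ 2) / 4)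
      linarith
  obtain ⟨a₀, b₀, X5, ha₀, hab, hb0, hb0', hmk⟩ := mk_of (T := T + 1) (R := R + 1) (X1 := X1)
    (X3 := X3) (X4 := X4) (rf := rf) (rc := rc / 2) (h₁ := h₁) (b₁ := b₁) hRd hcd hY0 hY hY2 h4R
    h16 hX1 hX13 hrf (by linarith) (by linarith) hX34 hh₁ (by linarith) hb₁
  obtain ⟨rd₀, hrd₀, hk5⟩ := H918.k3_row H X5
  obtain ⟨rd, hrd, hrd1, hrd2⟩ : ∃ rd : ℝ, 0 < rd ∧ rd ≤ rd₀ ∧ rd ≤ rc / 2 :=
    ⟨min rd₀ (rc / 2), by positivity, min_le_left _ _, min_le_right _ _⟩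
  obtain ⟨X6₀, hk6⟩ := near_row H hK (r := rd / 2) (by positivity)
  obtain ⟨X6, hX36, hX6₀⟩ : ∃ X6 : ℝ, X3 ≤ X6 ∧ X6₀ ≤ X6 := ⟨max X3 X6₀, by simp, by simp⟩
  obtain ⟨mm, t₁, κ₀, r₁, hmm0, hmma, hκ₀, hκm, hκa, hr₁, hmk⟩ := hmk rd hrd hrd2 X6 hX36
  obtain ⟨κP, rP, hκP, hrP, hPf⟩ := hPf h hh a₀ ha₀
  have hρ3 : 0 < 1 - ρb X3 := by
    have := ρb_lt (Y := X3) (by linarith)
    linarith
  have hρ4 : 0 < 1 - ρb X4 := by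
    have := ρb_lt (Y := X4) (by linarith)
    linarith
  obtain ⟨κ, hκ, hκ1, hκ2, hκ3, hκ4⟩ : ∃ κ : ℝ, 0 < κ ∧ κ ≤ κ₀ ∧ κ ≤ κP ∧ κ ≤ 1 - ρb X3 ∧
      κ ≤ 1 - ρb X4 :=
    ⟨min (min κ₀ κP) (min (1 - ρb X3) (1 - ρb X4)), by positivity,
      (min_le_left _ _).trans (min_le_left _ _), (min_le_left _ _).trans (min_le_right _ _),
      (min_le_right _ _).trans (min_le_left _ _), (min_le_right _ _).trans (min_le_right _ _)⟩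
  obtain ⟨τ, hτ, hτ1, hτa⟩ : ∃ τ : ℝ, 0 < τ ∧ τ ≤ 1 ∧ τ ≤ a₀ / 8 :=
    ⟨a₀ / 8, by positivity, by linarith, le_rfl⟩
  obtain ⟨x', xc, ε, η, e, ν, hCst⟩ := SG.exists_cst hx3 hxB1 hxB2 hτ hτ1 hκ
  obtain ⟨rs, hrs, hsat⟩ := hsat rfl hCst
  obtain ⟨r, hr, hr1, hr2, hr3, hr4, hr5⟩ : ∃ r : ℝ, 0 < r ∧ r ≤ rs ∧ 2 * r ≤ r₁ ∧ r ≤ rP ∧
      256 * r ≤ rc ∧ 16 * r ≤ h₁ := by
    refine ⟨min (min rs (r₁ / 2)) (min rP (min (rc / 256) (h₁ / 16))), by positivity,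
      (min_le_left _ _).trans (min_le_left _ _), ?_, (min_le_right _ _).trans (min_le_left _ _),
      ?_, ?_⟩
    · have := (min_le_left (min rs (r₁ / 2)) (min rP (min (rc / 256) (h₁ / 16)))).trans
        (min_le_right _ _)
      linarith
    · have := (min_le_right (min rs (r₁ / 2)) (min rP (min (rc / 256) (h₁ / 16)))).trans
        ((min_le_right _ _).trans (min_le_left _ _))
      linarith
    · have := (min_le_right (min rs (r₁ / 2)) (min rP (min (rc / 256) (h₁ / 16)))).trans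
        ((min_le_right _ _).trans (min_le_right _ _))
      linarith
  obtain ⟨s₃, hs₃, hsat⟩ := hsat r hr hr1
  have hOk : (⟨X1, rf, cg, X3, xB, X2, rc, X4, h₁, b₁, a₀, b₀, X5, rd, X6, mm, t₁, κ₀, τ, κ,
      x', xc, ε, η, e, ν, r⟩ : Kst).Ok ⟨T, R, X, X', Lc, Ld, m, 2 * (Rd + rc) + Ld + 200, Y, Rb⟩ :=
    ⟨hT, hR, hX1R, hX1T, hX13, hrf, hcg, hxB1, hxB2, hX12, hxB3, hrc, hrc2,
    hX34, hSm, hh₁, hh1b, hb₁, hb1b, ha₀, hab, hb0, hb0', hrd, by show 2 * rd ≤ rc; linarith,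
    hmm0, hmma, hκ₀, hκm, hκa, hτa, hκ1, hκ3, hκ4, hCst, hr, hr4, hr5⟩
  obtain ⟨s₁, hs₁, hInp⟩ := hInp _ _ rfl rfl hOk (hrfρ.trans (min_le_left _ _))
  obtain ⟨s₄, hs₄, hSide⟩ := hSide _ _ rfl rfl hOk (hrfρ.trans (min_le_right _ _))
  obtain ⟨s₂, hs₂, hPf⟩ := hPf _ _ hOk rfl rfl rfl rfl rfl (by show 4 * b₀ ≤ h; linarith)
    (by show 8 * h₁ ≤ h; linarith) hκ2 hr3
  refine ⟨r, hr, ?_⟩
  obtain ⟨s₀, hs₀, a1, a1', a2, a3, a4, a5, a6⟩ : ∃ s₀ : ℝ, 0 < s₀ ∧ s₀ ≤ s₁ ∧ s₀ ≤ s₄ ∧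
      s₀ ≤ s₂ ∧ s₀ ≤ s₃ ∧ 100 * s₀ ≤ m ∧ s₀ ≤ 1 ∧ 512 * s₀ ≤ rc := by
    refine ⟨min (min (min s₁ s₄) s₂) (min s₃ (min (m / 100) (min 1 (rc / 512)))), by positivity,
      (min_le_left _ _).trans ((min_le_left _ _).trans (min_le_left _ _)),
      (min_le_left _ _).trans ((min_le_left _ _).trans (min_le_right _ _)),
      (min_le_left _ _).trans (min_le_right _ _),
      (min_le_right _ _).trans (min_le_left _ _), ?_, ?_, ?_⟩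
    · have := (min_le_right (min (min s₁ s₄) s₂) (min s₃ (min (m / 100) (min 1 (rc / 512))))).trans
        ((min_le_right _ _).trans (min_le_left _ _))
      linarith
    · exact (min_le_right _ _).trans ((min_le_right _ _).trans ((min_le_right _ _).trans
        (min_le_left _ _)))
    · have := (min_le_right (min (min s₁ s₄) s₂) (min s₃ (min (m / 100) (min 1 (rc / 512))))).trans
        ((min_le_right _ _).trans ((min_le_right _ _).trans (min_le_right _ _)))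
      linarith
  refine ⟨s₀, hs₀, fun s hs hss => ?_⟩
  have hCx := ev_of H hOk hRd hconf le_rfl hX22 hrc1 hX4₀ hrd1 hX6₀ hk2 hk4 hk5 hk6 hr₁ hr2 hmk hs
    (show 100 * s ≤ m by linarith) (show 512 * s ≤ rc by linarith) (by linarith)
    (hsat s hs (hss.trans a3)) (hSide s hs (hss.trans a1'))
  filter_upwards [hCx, hInp s hs (hss.trans a1), hPf s hs (hss.trans a2)] with n g1 g2 g3
  intro A j hBef c
  obtain ⟨O, hO⟩ := g1 A j hBef c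
  exact ⟨O.P, hO.fam, g2 A j hBef c O hO, g3 A j hBef c O hO⟩

end Vale.Agent.P167.H704.Shp
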