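import Vale.Agent.P167.H653.St.Fin2
import Vale.Agent.P167.H450.MkC
import Vale.Agent.P167.H632.G.ShH
import Vale.Agent.P167.H446.G.Cl
import Vale.Agent.P167.SG.Cls7

/-!
# P167, general `q`, [SHP-ASM] (9): the constants and the situation of one history

* `Kst`, `Kst.Ok` : the constants in the order in which they are chosen;
* `Obj`, `Cx` : all the data of one history in the frame `v1` (the target is the middle of the coarse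
  side `0`, coarse mesh `lb s δ`).
-/

set_option autoImplicit false

namespace Vale.Agent.P167.H704.Shp

open Set Metric Filter Topology
open Vale.Agent.P153.R2.R1 (Conf dinv)
open Vale.Agent.P153.R2.L1 (HH)
open Vale.Agent.P164 (loewnerDomain)
open Vale.Agent.P167.QT
open Vale.Agent.P167.H192 (ro)
open Vale.Agent.P167.H411 (exn Set6)
open Vale.Agent.P167.H756 (FD)
open Vale.Agent.P167.H446.G
open Vale.Agent.P167.H713.Q (Dn Sd tip)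
open Vale.Agent.P167.H397.K (Kf frm)
open Vale.Agent.P167.H653.St (SatH)
open Vale.Agent.P167.H450.Out (Pm Mk IsMk xre)
open Vale.Agent.P167.SG (Bf Ug ρb)

/-- The origin of the frame of the bricks: `Ku L s - 2` units to the right of `vd`. -/
noncomputable def v1 {n : ℕ} (p : ZMod n → ℤ × ℤ) (k : ℕ) (L s δ : ℝ) : ℤ × ℤ :=
  ((vd p k L s δ).1 + ((Ku L s : ℤ) - 2) * H446.G.Nn s δ, (vd p k L s δ).2)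

/-- The mesh of the bricks; the target is `lb s δ / 2`. -/
noncomputable def lb (s δ : ℝ) : ℝ := 5 * (H446.G.dl δ * H446.G.Nn s δ)

/-- The constants, in the order in which they are chosen. -/
structure Kst where
  /-- before `h` -/
  X1 : ℝ
  rf : ℝ
  cg : ℝ
  X3 : ℝ
  xB : ℝ
  X2 : ℝ
  rc : ℝ
  X4 : ℝ
  /-- the mark -/
  h₁ : ℝ
  b₁ : ℝ
  a₀ : ℝ
  b₀ : ℝ
  X5 : ℝ
  rd : ℝ
  X6 : ℝ
  m : ℝ
  t₁ : ℝ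
  κ₀ : ℝ
  /-- the disc -/
  τ : ℝ
  κ : ℝ
  x' : ℝ
  xc : ℝ
  ε : ℝ
  η : ℝ
  e : ℝ
  ν : ℝ
  /-- the sizes -/
  r : ℝ

/-- The relations of the constants. -/
structure Kst.Ok (K : Kst) (C : Cst) : Prop where
  T0 : 0 ≤ C.T
  R0 : 0 < C.R
  X1R : 8 * (C.R + 1) ≤ K.X1
  X1T : 64 * (C.T + 1) ≤ K.X1 ^ 2
  X13 : K.X1 ≤ K.X3
  rf0 : 0 < K.rf
  cg0 : 0 < K.cg
  xB1 : xre K.X3 < K.xB
  xB2 : K.xB < 1
  X12 : K.X1 ≤ K.X2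
  xB3 : K.xB ≤ (K.X2 / 2 - 1) / (K.X2 / 2 + 1)
  rc0 : 0 < K.rc
  rcf : 16 * K.rc ≤ K.rf
  X34 : K.X3 ≤ K.X4
  sm : C.Sm (K.rc / 8)
  h10 : 0 < K.h₁
  h1c : 32 * K.h₁ ≤ K.rc
  b10 : 0 < K.b₁
  b1x : (xre K.X4) ^ 2 < 1 - 2 * K.b₁
  a00 : 0 < K.a₀
  ab : K.a₀ < K.b₀
  b01 : K.b₀ ≤ K.b₁
  b02 : K.b₀ ≤ 1 / 2
  rd0 : 0 < K.rd
  rdc : 2 * K.rd ≤ K.rc
  m0 : 0 < K.m
  ma : K.m ≤ K.a₀ / 128
  κ00 : 0 < K.κ₀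
  κm : K.κ₀ ≤ K.m
  κa : K.κ₀ ≤ K.a₀ / 512
  τa : K.τ ≤ K.a₀ / 8
  κκ : K.κ ≤ K.κ₀
  κ3 : K.κ ≤ 1 - ρb K.X3
  κ4 : K.κ ≤ 1 - ρb K.X4
  cst : SG.Cst (xre K.X3) K.xB K.τ K.κ K.x' K.xc K.ε K.η K.e K.ν
  r0 : 0 < K.r
  rrc : 256 * K.r ≤ K.rc
  rh1 : 16 * K.r ≤ K.h₁

/-- The objects of one history. -/
structure Obj where
  /-- the teeth -/
  κ' : Type
  Th : κ' → Set ℂ
  /-- the gate -/
  Gt : Set ℂ
  x₁ : ℂ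
  /-- the mark -/
  sm : ℝ
  Kb : Set ℂ
  Xb : Set ℂ
  q : ℂ
  x₂ : ℝ
  e' : ℂ
  Km : Set ℂ
  /-- the shape -/
  te : ℝ
  nc : ℕ
  pc : ZMod nc → ℤ × ℤ
  Sc : Finset (ℤ × ℤ)
  Bm : Finset (ℤ × ℤ)
  i : ℕ
  x : ℕ
  P : Sh4

section

variable (C : Cst) (K : Kst) (δ : ℕ → ℝ) (N k : ℕ → ℕ) (p : ∀ n, ZMod (N n) → ℤ × ℤ)
  (S : ℕ → Finset (ℤ × ℤ)) (ψn : ℕ → ℂ → ℂ) (s : ℝ) (n : ℕ) (A : Hst) (j : ℕ) (c : Bool)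

/-- The uniformizer in the frame. -/
noncomputable abbrev ps1 : ℂ → ℂ := psr (δ n) (v1 (p n) (k n) C.Ld s (δ n)) (ψn n)

/-- The domain in the frame. -/
noncomputable abbrev D1 : Set ℂ :=
  ps1 C δ N k p ψn s n '' loewnerDomain ((exn δ N k p S ψn n).W A) ((exn δ N k p S ψn n).c A j)

/-- The map of the disc onto the domain. -/
noncomputable abbrev F1 : ℂ → ℂ :=
  FD (ps1 C δ N k p ψn s n) ((exn δ N k p S ψn n).W A) ((exn δ N k p S ψn n).c A j)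

/-- The obstacles. -/
noncomputable abbrev K1 {κ' : Type} (Th : κ' → Set ℂ) :=
  Sum.elim (Kf (p n) (k n) (S n) A j (δ n) c (rS s (δ n)) (rR K.r (δ n))
    (v1 (p n) (k n) C.Ld s (δ n))) Th

/-- The domain of the polygon. -/
noncomputable abbrev U1 {κ' : Type} (Th : κ' → Set ℂ) : Set ℂ :=
  Ug (F1 C δ N k p S ψn s n A j) (H653.St.sg c) K.ε (K.τ / 2) K.xc
    (fun i => dinv (F1 C δ N k p S ψn s n A j) '' K1 C K δ N k p S s n A j c Th i)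

/-- The outer polygon. -/
noncomputable abbrev P1 {κ' : Type} (Th : κ' → Set ℂ) : Set ℂ :=
  Pm (lb s (δ n)) (U1 C K δ N k p S ψn s n A j c Th)

/-- The first part of the situation: `Sat`, teeth, flat box. -/
structure Cx0 (O : Obj) : Prop where
  fin : Finite O.κ'
  sat : SatH (C.T + 1) (C.R + 1) (xre K.X3) K.xB K.τ K.κ K.x' K.xc K.ε K.η K.e K.ν K.X1 K.X3
    δ N k p S ψn n (v1 (p n) (k n) C.Ld s (δ n)) (rS s (δ n)) (rR K.r (δ n)) (2 * K.r)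
    (20 * (100 * s)) (2 * K.r) (lb s (δ n)) (20 * (100 * s)) (lb s (δ n) / 2) K.rf K.cg
    (3 * H446.G.dl (δ n)) O.Gt O.x₁ O.Th A j c
  te : SG.Te (D1 C δ N k p S ψn s n A j) (K1 C K δ N k p S s n A j c O.Th)
    (fun i => i.isRight = true) (lb s (δ n) / 2) (5 * K.rf / 8) (3 * K.rf / 4)
  far2 : ∀ z ∈ HH, ps1 C δ N k p ψn s n z ∈ Bf (lb s (δ n) / 2) K.rc → K.X2 ≤ ‖z‖
  near4 : ∀ z ∈ HH, K.X4 ≤ ‖z‖ → ps1 C δ N k p ψn s n z ∈ Bf (lb s (δ n) / 2) (K.rc / 8)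
  hup : ∀ z ∈ Bf (lb s (δ n) / 2) K.rc, 3 * H446.G.dl (δ n) < z.im →
    z ∈ U1 C K δ N k p S ψn s n A j c O.Th
  fl : ∀ z ∈ Bf (lb s (δ n) / 2) (K.rc / 2),
    (z ∈ P1 C K δ N k p S ψn s n A j c O.Th ↔ 0 < z.im)
  lb1 : lb s (δ n) ≤ 5 * s
  s1 : 100 * s ≤ C.m
  s2 : 512 * s ≤ K.rc
  δ1 : 40 * δ n < s

/-- The second part: the data of the mark. -/
structure CxM (O : Obj) : Prop extends Cx0 C K δ N k p S ψn s n A j c O where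
  sm1 : K.a₀ < O.sm
  sm2 : O.sm < K.b₀
  hmk : Mk (F1 C δ N k p S ψn s n A j) (H653.St.sg c) K.ε (K.τ / 2) K.xc K.e K.ν (2 * (2 * K.r))
    (lb s (δ n)) (fun i => dinv (F1 C δ N k p S ψn s n A j) '' K1 C K δ N k p S s n A j c O.Th i)
    O.sm (K.a₀ / 2) (K.a₀ / 8) K.m K.h₁ K.t₁ (Bf (lb s (δ n) / 2) (K.rc / 4)) O.Kb O.Xb
    ((lb s (δ n) / 2 : ℝ) : ℂ) (O.x₂ : ℂ) O.q
  x₂_mem : (O.x₂ : ℂ) ∈ Bf (lb s (δ n) / 2) (K.rc / 4)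
  x₂_eq : O.x₂ = (F1 C δ N k p S ψn s n A j O.q).re
  x₂_far : K.rd ≤ |O.x₂ - lb s (δ n) / 2|
  Xb_eq : O.Xb = segment ℝ (F1 C δ N k p S ψn s n A j O.q) (O.x₂ : ℂ)
  q_D : F1 C δ N k p S ψn s n A j O.q ∈ F1 C δ N k p S ψn s n A j '' ball 0 1
  q_im1 : 0 < (F1 C δ N k p S ψn s n A j O.q).im
  q_im2 : (F1 C δ N k p S ψn s n A j O.q).im ≤ K.rd / 2

/-- The situation of one history of one colour. -/
structure Cx (O : Obj) : Prop extends CxM C K δ N k p S ψn s n A j c O where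
  x₂_side : H653.St.sg c * (O.x₂ - lb s (δ n) / 2) < 0
  isMk : IsMk (P1 C K δ N k p S ψn s n A j c O.Th) (U1 C K δ N k p S ψn s n A j c O.Th)
    (F1 C δ N k p S ψn s n A j) (H653.St.sg c) K.ν O.sm (lb s (δ n))
    (K.h₁ + 2 * (2 * (2 * K.r)) + 3 * lb s (δ n))
    (F1 C δ N k p S ψn s n A j ((-1 + O.sm : ℝ) : ℂ)) O.e' O.Km
  e'_far : O.e' ∉ Bf (lb s (δ n) / 2) (K.rc / 4)
  shd : H632G.ShD (lb s (δ n)) (P1 C K δ N k p S ψn s n A j c O.Th) O.e' O.te (Ku C.Ld s) O.pc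
    O.Sc O.Bm O.i O.x O.P
  fam : O.P ∈ Fam C.Ld C.Lc C.m C.B s

end

/-- The side of the reference point of the mark (450). -/
def S_side : Prop := ∀ (Φ : (ℝ × ℝ) ≃ₜ (ℝ × ℝ)) (ψ : ℂ → ℂ) (δ : ℕ → ℝ) (N k : ℕ → ℕ)
    (p : ∀ n, ZMod (N n) → ℤ × ℤ) (S : ℕ → Finset (ℤ × ℤ)) (ψn : ℕ → ℂ → ℂ),
    Set6 Φ ψ δ N k p S ψn → QE.Stair 3 Φ δ N k p S → ∀ T R : ℝ, 0 ≤ T → 0 < R →
    ∃ ρI : ℝ, 0 < ρI ∧ ∀ (C : Cst) (K : Kst), C.T = T → C.R = R → K.Ok C → K.rf ≤ ρI →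
    ∃ s₀ : ℝ, 0 < s₀ ∧ ∀ s : ℝ, 0 < s → s ≤ s₀ → ∀ᶠ n in atTop,
      ∀ (A : Hst) (j : ℕ), Bef (exn δ N k p S ψn n) C.T C.R A j → ∀ (c : Bool) (O : Obj),
        CxM C K δ N k p S ψn s n A j c O → H653.St.sg c * (O.x₂ - lb s (δ n) / 2) < 0

/-- Boxes (4) - (8): the lattice relation. -/
def S_inp : Prop := ∀ (Φ : (ℝ × ℝ) ≃ₜ (ℝ × ℝ)) (ψ : ℂ → ℂ) (δ : ℕ → ℝ) (N k : ℕ → ℕ)
    (p : ∀ n, ZMod (N n) → ℤ × ℤ) (S : ℕ → Finset (ℤ × ℤ)) (ψn : ℕ → ℂ → ℂ),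
    Set6 Φ ψ δ N k p S ψn → QE.Stair 3 Φ δ N k p S → ∀ T R : ℝ, 0 ≤ T → 0 < R →
    ∃ ρI : ℝ, 0 < ρI ∧ ∀ (C : Cst) (K : Kst), C.T = T → C.R = R → K.Ok C → K.rf ≤ ρI →
    ∃ s₀ : ℝ, 0 < s₀ ∧ ∀ s : ℝ, 0 < s → s ≤ s₀ → ∀ᶠ n in atTop,
      ∀ (A : Hst) (j : ℕ), Bef (exn δ N k p S ψn n) C.T C.R A j → ∀ (c : Bool) (O : Obj),
        Cx C K δ N k p S ψn s n A j c O →
        Inp C (p n) (k n) (S n) (δ n) K.r s A j c O.P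

/-- Box (3): the closeness of the conformal data. `hp`, `κP`, `rP` : the constants. -/
def S_pf : Prop := ∀ (Φ : (ℝ × ℝ) ≃ₜ (ℝ × ℝ)) (ψ : ℂ → ℂ) (δ : ℕ → ℝ) (N k : ℕ → ℕ)
    (p : ∀ n, ZMod (N n) → ℤ × ℤ) (S : ℕ → Finset (ℤ × ℤ)) (ψn : ℕ → ℂ → ℂ),
    Set6 Φ ψ δ N k p S ψn → QE.Stair 3 Φ δ N k p S → ∀ T R Y : ℝ, 0 ≤ T → 0 < R → 0 < Y →
    8 * (R + 1) ≤ Y → 64 * (T + 1) ≤ Y ^ 2 → ∃ Rb : ℝ, 0 ≤ Rb ∧ ∀ h : ℝ, 0 < h →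
    ∀ a₀ : ℝ, 0 < a₀ → ∃ κP rP : ℝ, 0 < κP ∧ 0 < rP ∧ ∀ (C : Cst) (K : Kst), K.Ok C →
    C.T = T → C.R = R → C.Y = Y → C.Rb = Rb → K.a₀ = a₀ → 4 * K.b₀ ≤ h → 8 * K.h₁ ≤ h →
    K.κ ≤ κP → K.r ≤ rP →
    ∃ s₀ : ℝ, 0 < s₀ ∧ ∀ s : ℝ, 0 < s → s ≤ s₀ → ∀ᶠ n in atTop,
      ∀ (A : Hst) (j : ℕ), Bef (exn δ N k p S ψn n) C.T C.R A j → ∀ (c : Bool) (O : Obj),
        Cx C K δ N k p S ψn s n A j c O → ClS C δ N k p S ψn h s n A j O.P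

end Vale.Agent.P167.H704.Shp
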