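import Vale.Agent.P167.H704.Shp.Fin0
import Vale.Agent.P167.H506.SHP.Fin0
import Vale.Agent.P167.H264.FlS.Main
import Vale.Agent.P167.H259.S.ArcF

/-!
# P167, general `q`, [SHP-ASM]: `B_shp` is a theorem
-/

set_option autoImplicit false

namespace Vale.Agent.P167.H704.Shp

/-- The lattice relation of the shapes. -/
theorem s_inp : S_inp :=
  H506.SHP.s_inp_fl2 fun _ _ _ _ _ _ _ _ H hSt => H264.FlS.f_fl2 H hSt (H259.S.f_arcl H)

/-- **Block [SHP].** -/
theorem b_shp : H446.G.B_shp := b_shp_inp s_inp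

end Vale.Agent.P167.H704.Shp
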