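import Vale.Agent.P167.H704.Shp.Asm
import Vale.Agent.P167.H640.MK.SideS
import Vale.Agent.P167.H756.PF.SPf

/-!
# P167, general `q`, [SHP-ASM]: `B_shp` from the lattice relation `S_inp`
-/

set_option autoImplicit false

namespace Vale.Agent.P167.H704.Shp

/-- `B_shp` from `S_inp`. -/
theorem b_shp_inp (h : S_inp) : H446.G.B_shp :=
  b_shp_of H640.MK.side_S h H756.PFG.s_pf

end Vale.Agent.P167.H704.Shp
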