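import Vale.Agent.P167.H918.FltS
import Vale.Agent.P167.H450.OutB2
import Vale.Agent.P167.SG.Cls5

/-!
# P167, general `q`, [SHP-ASM] (9): the flat box of the polygon, bounds

* `near_row` : points from far away are near the target;
* `fl_box` : the outer polygon is the upper half of the box of radius `rc / 2`;
* `pm_bdd` : the outer polygon is bounded.
-/

set_option autoImplicit false

namespace Vale.Agent.P167.H704.Shp

open Set Metric Filter Topology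
open Vale.Agent.P153.R2.R1 (Conf dinv)
open Vale.Agent.P153.R2.L1 (HH)
open Vale.Agent.P164 (loewnerDomain)
open Vale.Agent.P167.H192 (ro)
open Vale.Agent.P167.H411 (exn Set6)
open Vale.Agent.P167.H756 (FD)
open Vale.Agent.P167.H446.G (psr)
open Vale.Agent.P167.H450 (sqr bk br)
open Vale.Agent.P167.H450.Out (Pm MF Fil Ofc flat_Pm2 ofc_far)
open Vale.Agent.P167.SG (Bf Ug Sat bf_mono)

theorem near_row {Φ : (ℝ × ℝ) ≃ₜ (ℝ × ℝ)} {ψ : ℂ → ℂ} {δ : ℕ → ℝ} {N k : ℕ → ℕ}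
    {p : ∀ n, ZMod (N n) → ℤ × ℤ} {S : ℕ → Finset (ℤ × ℤ)} {ψn : ℕ → ℂ → ℂ}
    (H : Set6 Φ ψ δ N k p S ψn) (hK : QE.Stair 3 Φ δ N k p S) {r : ℝ} (hr : 0 < r) :
    ∃ X : ℝ, ∀ᶠ n in atTop, ∀ v₀ : ℤ × ℤ, v₀.2 = (ro (p n (k n))).2 → ∀ z ∈ HH, X ≤ ‖z‖ →
      psr (δ n) v₀ (ψn n) z ∈ Bf (H446.G.dl (δ n) * (((ro (p n (k n))).1 - v₀.1 : ℤ) : ℝ)) r := by
  obtain ⟨rf, cg, X3, h1, h2, -, -, h⟩ := H918.flt_row H hK (X1 := 1) one_pos hr
  refine ⟨X3, ?_⟩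
  filter_upwards [h] with n hn v₀ hv z hz hzX
  obtain ⟨Gt, x₁, hF⟩ := hn v₀ hv
  exact bf_mono (show rf / 4 ≤ r by linarith) (hF.near z hz hzX)

/-- **The flat box of the outer polygon.** -/
theorem fl_box {ι : Type} {T R x3 xB τ κ x' xc ε η e ν X1 X3 : ℝ} {ψ : ℂ → ℂ} {W : ℝ → ℝ}
    {t σ xb rf cg δ r₀ ρ r' ℓ s₂ : ℝ} {Gt IN : Set ℂ} {x₁ tp : ℂ} {K : ι → Set ℂ}
    (H : Sat T R x3 xB τ κ x' xc ε η e ν X1 X3 ψ W t σ xb rf cg δ r₀ ρ r' ℓ s₂ Gt IN x₁ tp K)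
    {rc : ℝ} (hrc : 16 * rc ≤ rf) (hℓ : 8 * ℓ ≤ rc)
    (hup : ∀ z ∈ Bf xb rc, δ < z.im →
      z ∈ Ug (FD ψ W t) σ ε (τ / 2) xc (fun i => dinv (FD ψ W t) '' K i)) {z : ℂ}
    (hz : z ∈ Bf xb (rc / 2)) :
    z ∈ Pm ℓ (Ug (FD ψ W t) σ ε (τ / 2) xc (fun i => dinv (FD ψ W t) '' K i)) ↔ 0 < z.im := by
  have hℓ0 := H.hℓ
  have hδ := H.flt.hδ
  have hδℓ := H.hδℓ
  have hrf0 := H.flt.hrf
  have hcg := H.hcg
  have hrc0 : 0 < rc := by linarith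
  have hUD : Ug (FD ψ W t) σ ε (τ / 2) xc (fun i => dinv (FD ψ W t) '' K i) ⊆
      ψ '' loewnerDomain W t := by rw [← H.img]; exact H.sit.sub
  set k₀ : ℂ := ⟨xb, -(rf / 2)⟩ with hk₀
  set k₁ : ℂ := ⟨xb, -(rc / 2)⟩ with hk₁
  have hX : IsPreconnected (Gt ∪ segment ℝ k₀ k₁) :=
    IsPreconnected.union k₀ H.flt.g0 (left_mem_segment ℝ _ _) H.flt.gc
      (convex_segment _ _).isPreconnected
  have hfar : ∀ x ∈ Gt ∪ segment ℝ k₀ k₁,
      ∀ u ∈ Ug (FD ψ W t) σ ε (τ / 2) xc (fun i => dinv (FD ψ W t) '' K i), 3 * ℓ < dist x u := by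
    rintro x (hx | hx) u hu
    · have := H.flt.gfar x hx u (H.sub_HH (hUD hu))
      linarith
    · by_contra hcon
      push Not at hcon
      have a1 := SG.seg_re hx
      have a2 := SG.seg_im hx
      simp only [hk₀, hk₁, min_self, max_self] at a1
      have e1 : min k₀.im k₁.im = -(rf / 2) := by
        simp only [hk₀, hk₁]
        exact min_eq_left (by linarith)
      have e2 : max k₀.im k₁.im = -(rc / 2) := by
        simp only [hk₀, hk₁]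
        exact max_eq_right (by linarith)
      rw [e1, e2] at a2
      rw [dist_comm, dist_eq_norm] at hcon
      have b1 := (Complex.abs_re_le_norm (u - x)).trans hcon
      have b2 := (Complex.abs_im_le_norm (u - x)).trans hcon
      rw [Complex.sub_re, abs_le] at b1
      rw [Complex.sub_im, abs_le] at b2
      have hub : u ∈ Bf xb rf := by
        refine ⟨abs_lt.2 ⟨by linarith, by linarith⟩, abs_lt.2 ⟨by linarith, by linarith⟩⟩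
      have h5 := H.flt.low' H.drv H.h4 H.h16 (hUD hu) hub
      linarith
  obtain ⟨hz1, hz2⟩ := hz
  have e0 : ℓ * ((0 : ℤ) : ℝ) = 0 := by simp
  have key := flat_Pm2 (ρ := rc) (U := Ug (FD ψ W t) σ ε (τ / 2) xc
    (fun i => dinv (FD ψ W t) '' K i)) (X := Gt ∪ segment ℝ k₀ k₁) (k := k₁) (z := z)
    hℓ0 (xb := xb) (b := 0) ?_ ?_ hX hfar (x₁ := x₁)
    (Or.inl H.flt.g1) ?_ (Or.inr (right_mem_segment ℝ _ _)) ?_ ?_ ?_ ?_ ?_
  · rw [key, e0]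
  · intro w h1 h2 h3
    rw [e0] at h2 h3
    refine hup w ⟨h1, abs_lt.2 ⟨by linarith, by linarith⟩⟩ (by linarith)
  · intro w h1 h2 h3
    rw [e0] at h2 h3
    refine H.flat_lo (bf_mono (show rc ≤ rf / 2 by linarith) ⟨h1, abs_lt.2 ⟨by linarith, ?_⟩⟩) h3
    linarith
  · intro u hu
    have := H.flt.g2 u (H.sub_HH (hUD hu))
    linarith
  · simp only [hk₁, sub_self, abs_zero]
    linarith
  · rw [e0]
    simp only [hk₁]
    linarith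
  · rw [e0]
    simp only [hk₁]
    linarith
  · linarith
  · rw [e0, sub_zero]
    linarith

/-- **The outer polygon is bounded.** -/
theorem pm_bdd {ℓ M : ℝ} {U : Set ℂ} (hℓ : 0 < ℓ) (hU : ∀ z ∈ U, |z.re| ≤ M ∧ |z.im| ≤ M) {z : ℂ}
    (hz : z ∈ Pm ℓ U) : |z.re| ≤ M + 3 * ℓ ∧ |z.im| ≤ M + 3 * ℓ := by
  obtain ⟨F, hF, h1, h2, h3, h4⟩ := interior_subset hz
  have hE : ∀ E ∈ MF ℓ U, |E.1| ≤ ⌊M / ℓ⌋ + 2 ∧ |E.2| ≤ ⌊M / ℓ⌋ + 2 := by
    rintro E ⟨u, ⟨a1, a2, a3, a4⟩, hu⟩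
    obtain ⟨b1, b2⟩ := hU u hu
    rw [abs_le] at b1 b2
    have hb := (Vale.Agent.P167.H450.br_eq_iff (F := E) (b := br E)).1 rfl
    obtain ⟨c1, c2⟩ := hb
    have d1 : ((2 * (br E).1 - (br E).2 : ℤ) : ℝ) ≤ E.1 := by
      have : 2 * (br E).1 - (br E).2 ≤ E.1 := by omega
      exact_mod_cast this
    have d2 : (E.1 : ℝ) ≤ ((2 * (br E).1 - (br E).2 + 1 : ℤ) : ℝ) := by
      have : E.1 ≤ 2 * (br E).1 - (br E).2 + 1 := by omega
      exact_mod_cast this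
    have d3 : (E.2 : ℝ) = ((br E).2 : ℝ) := by exact_mod_cast c2
    push_cast at d1 d2
    have e1 : ℓ * E.1 ≤ M + ℓ := by nlinarith
    have e2 : -(M + 2 * ℓ) ≤ ℓ * E.1 := by nlinarith
    have e3 : ℓ * E.2 ≤ M := by rw [d3]; linarith
    have e4 : -(M + ℓ) ≤ ℓ * E.2 := by rw [d3]; linarith
    have f : ∀ a : ℤ, ℓ * a ≤ M + 2 * ℓ → -(M + 2 * ℓ) ≤ ℓ * a → |a| ≤ ⌊M / ℓ⌋ + 2 := by
      intro a g1 g2
      have h5 : ⌊M / ℓ⌋ + 2 = ⌊M / ℓ + 2⌋ := by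
        have := Int.floor_add_intCast (M / ℓ) 2
        push_cast at this
        exact this.symm
      rw [h5, Int.le_floor]
      push_cast
      rw [abs_le]
      have h6 : M / ℓ * ℓ = M := div_mul_cancel₀ _ hℓ.ne'
      constructor
      · by_contra hcon
        push Not at hcon
        nlinarith
      · by_contra hcon
        push Not at hcon
        nlinarith
    exact ⟨f _ (by linarith) e2, f _ (by linarith) (by linarith)⟩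
  have hF' : ¬ (⌊M / ℓ⌋ + 2 < |F.1| ∨ ⌊M / ℓ⌋ + 2 < |F.2|) := fun h => hF (ofc_far hE h)
  push Not at hF'
  obtain ⟨g1, g2⟩ := hF'
  have hfl := Int.floor_le (M / ℓ)
  rw [le_div_iff₀ hℓ] at hfl
  have i1 : |(F.1 : ℝ)| ≤ (⌊M / ℓ⌋ : ℝ) + 2 := by exact_mod_cast g1
  have i2 : |(F.2 : ℝ)| ≤ (⌊M / ℓ⌋ : ℝ) + 2 := by exact_mod_cast g2
  rw [abs_le] at i1 i2
  obtain ⟨i1, i1'⟩ := i1
  obtain ⟨i2, i2'⟩ := i2
  refine ⟨abs_le.2 ⟨?_, ?_⟩, abs_le.2 ⟨?_, ?_⟩⟩ <;> nlinarith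

end Vale.Agent.P167.H704.Shp
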