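import Vale.Agent.P167.H704.Shp.Cx
import Vale.Agent.P167.H704.Shp.Flat
import Vale.Agent.P167.H632.G.ShIn

/-!
# P167, general `q`, [SHP-ASM] (9): the situation `Cx` of one history

`MkAll` : the conclusion of `mk_of`. `cx_of` : from `Sat`, `Te`, the moduli at the target, `MkAll`:
an object `O` with `CxM`, and `Cx` up to the side of the reference point.
-/

set_option autoImplicit false

namespace Vale.Agent.P167.H704.Shp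

open Set Metric Filter Topology
open Vale.Agent.P153.R2
open Vale.Agent.P153.R2.R1 (Conf dinv)
open Vale.Agent.P153.R2.L1 (HH)
open Vale.Agent.P164 (loewnerDomain)
open Vale.Agent.P167.QT
open Vale.Agent.P167.H192 (ro)
open Vale.Agent.P167.H411 (exn Set6)
open Vale.Agent.P167.H756 (FD HConf Drv)
open Vale.Agent.P167.H446.G
open Vale.Agent.P167.H653.St (SatH)
open Vale.Agent.P167.H450.Out (Pm Mk IsMk xre mk_of OD)
open Vale.Agent.P167.SG (Bf Ug ρb bf_mono ρb_lt Flt Sit Nr2 Jd)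

/-- The conclusion of `mk_of`. -/
def MkAll (T R Rd cd Y X1 X3 X4 X5 X6 rf rc rd h₁ a₀ b₀ m t₁ κ₀ r₁ : ℝ) : Prop :=
    ∀ {ε e ν : ℝ}, ε ≤ κ₀ → e ≤ κ₀ → 0 < ν → ν ≤ κ₀ → ∀ {ι : Type}
      {ψ : ℂ → ℂ} {W : ℝ → ℝ} {t σ xb cg δ r₀ ℓ xc ε' : ℝ} {Gt : Set ℂ} {x₁ : ℂ} {κ : ι → Set ℂ},
      HConf Rd cd Y ψ → Drv T R W t → Flt ψ xb rf cg X1 X3 δ Gt x₁ →
      (∀ z ∈ HH, X4 ≤ ‖z‖ → ψ z ∈ Bf xb (rc / 2)) →
      (∀ z ∈ HH, ψ z ∈ Bf xb rd → X5 ≤ ‖z‖) →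
      (∀ z ∈ HH, X6 ≤ ‖z‖ → ψ z ∈ Bf xb (rd / 2)) →
      Sit (FD ψ W t) σ ε ε' xc e ν (2 * r₀) ℓ κ →
      (∀ u ∈ Ug (FD ψ W t) σ ε ε' xc κ, ∀ y ∈ ψ '' loewnerDomain W t, dist u y ≤ 12 * ℓ →
          (Nr2 σ ν (dinv (FD ψ W t) y) → xre X3 < (dinv (FD ψ W t) y).re) →
          Jd (ψ '' loewnerDomain W t) r₀ u y) →
      (∀ z ∈ Bf xb rc, (z ∈ Pm ℓ (Ug (FD ψ W t) σ ε ε' xc κ) ↔ 0 < z.im)) →
      0 < r₀ → r₀ ≤ r₁ → 40 * ℓ ≤ r₀ → δ ≤ r₁ →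
      ∃ s ∈ Ioo a₀ b₀, ∃ Xb Kb : Set ℂ, ∃ q : ℂ, ∃ x₂ : ℝ,
        (x₂ : ℂ) ∈ Bf xb (rc / 2) ∧ x₂ = (FD ψ W t q).re ∧ rd ≤ |x₂ - xb| ∧
        Xb = segment ℝ (FD ψ W t q) (x₂ : ℂ) ∧ FD ψ W t q ∈ FD ψ W t '' ball 0 1 ∧
        0 < (FD ψ W t q).im ∧ (FD ψ W t q).im ≤ rd / 2 ∧
        Mk (FD ψ W t) σ ε ε' xc e ν (2 * r₀) ℓ κ s (a₀ / 2) (a₀ / 8) m h₁ t₁
          (Bf xb (rc / 2)) Kb Xb (xb : ℂ) (x₂ : ℂ) q

theorem v1_row {n : ℕ} (p : ZMod n → ℤ × ℤ) (k : ℕ) (L s δ : ℝ) :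
    (v1 p k L s δ).2 = (ro (p k)).2 := by
  simp [v1, vd]

theorem xb_eq {n : ℕ} (p : ZMod n → ℤ × ℤ) (k : ℕ) (L s δ : ℝ) :
    H446.G.dl δ * (((ro (p k)).1 - (v1 p k L s δ).1 : ℤ) : ℝ) = lb s δ / 2 := by
  obtain ⟨a, ha⟩ := H446.G.Nn_dvd s δ
  have e : (ro (p k)).1 - (v1 p k L s δ).1 = 10 * (a : ℤ) := by
    simp only [v1, vd, Prod.fst_sub]
    rw [ha]
    have e : 4 * a / 2 = 2 * a := by omega
    rw [e]
    push_cast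
    ring
  unfold lb
  rw [e, ha]
  push_cast
  ring

section

variable {C : Cst} {K : Kst} {δ : ℕ → ℝ} {N k : ℕ → ℕ} {p : ∀ n, ZMod (N n) → ℤ × ℤ}
  {S : ℕ → Finset (ℤ × ℤ)} {ψn : ℕ → ℂ → ℂ} {s : ℝ} {n : ℕ} {A : Hst} {j : ℕ} {c : Bool}
  {κ' : Type} {Th : κ' → Set ℂ} {Gt : Set ℂ} {x₁ : ℂ}

/-- The domain `U` is bounded. -/
theorem u_bdd (hS : SatH (C.T + 1) (C.R + 1) (xre K.X3) K.xB K.τ K.κ K.x' K.xc K.ε K.η K.e K.ν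
      K.X1 K.X3 δ N k p S ψn n (v1 (p n) (k n) C.Ld s (δ n)) (rS s (δ n)) (rR K.r (δ n)) (2 * K.r)
      (20 * (100 * s)) (2 * K.r) (lb s (δ n)) (20 * (100 * s)) (lb s (δ n) / 2) K.rf K.cg
      (3 * H446.G.dl (δ n)) Gt x₁ Th A j c)
    (hnear4 : ∀ z ∈ HH, K.X4 ≤ ‖z‖ →
      ps1 C δ N k p ψn s n z ∈ Bf (lb s (δ n) / 2) (K.rc / 8)) (hrc : 0 < K.rc)
    {Rd cd Y : ℝ} (hc : HConf Rd cd Y (ps1 C δ N k p ψn s n)) {u : ℂ}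
    (hu : u ∈ U1 C K δ N k p S ψn s n A j c Th) :
    ‖u - ((lb s (δ n) / 2 : ℝ) : ℂ)‖ ≤ Rd + K.rc := by
  unfold SatH at hS
  have hu2 := hS.sub_HH (by rw [← hS.img]; exact hS.sit.sub hu)
  obtain ⟨w, hw, rfl⟩ := hu2
  have hI : (((|K.X4| + 1 : ℝ) : ℂ) * Complex.I) ∈ HH := by
    show 0 < (((|K.X4| + 1 : ℝ) : ℂ) * Complex.I).im
    rw [H756.im_mulI]
    positivity
  have h1 := hnear4 _ hI (by
    rw [H756.norm_mulI (by positivity)]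
    linarith [le_abs_self K.X4])
  have h2 := hc.bdd w hw _ hI
  obtain ⟨h3, h4⟩ := h1
  have h5 := Complex.norm_le_abs_re_add_abs_im
    (ps1 C δ N k p ψn s n (((|K.X4| + 1 : ℝ) : ℂ) * Complex.I) - ((lb s (δ n) / 2 : ℝ) : ℂ))
  rw [Complex.sub_re, Complex.sub_im, Complex.ofReal_re, Complex.ofReal_im, sub_zero] at h5
  have h8 := norm_add_le (ps1 C δ N k p ψn s n w -
      ps1 C δ N k p ψn s n (((|K.X4| + 1 : ℝ) : ℂ) * Complex.I))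
      (ps1 C δ N k p ψn s n (((|K.X4| + 1 : ℝ) : ℂ) * Complex.I) - ((lb s (δ n) / 2 : ℝ) : ℂ))
  rw [sub_add_sub_cancel] at h8
  linarith

/-- **The situation of one history.** -/
theorem cx_of (hOk : K.Ok C) (hs : 0 < s) (hδ : 0 < δ n) (hfin : Finite κ')
    (hS : SatH (C.T + 1) (C.R + 1) (xre K.X3) K.xB K.τ K.κ K.x' K.xc K.ε K.η K.e K.ν
      K.X1 K.X3 δ N k p S ψn n (v1 (p n) (k n) C.Ld s (δ n)) (rS s (δ n)) (rR K.r (δ n)) (2 * K.r)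
      (20 * (100 * s)) (2 * K.r) (lb s (δ n)) (20 * (100 * s)) (lb s (δ n) / 2) K.rf K.cg
      (3 * H446.G.dl (δ n)) Gt x₁ Th A j c)
    (hTe : SG.Te (D1 C δ N k p S ψn s n A j) (K1 C K δ N k p S s n A j c Th)
      (fun i => i.isRight = true) (lb s (δ n) / 2) (5 * K.rf / 8) (3 * K.rf / 4))
    (hfar2 : ∀ z ∈ HH, ps1 C δ N k p ψn s n z ∈ Bf (lb s (δ n) / 2) K.rc → K.X2 ≤ ‖z‖)
    (hnear4 : ∀ z ∈ HH, K.X4 ≤ ‖z‖ → ps1 C δ N k p ψn s n z ∈ Bf (lb s (δ n) / 2) (K.rc / 8))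
    (hlb1 : lb s (δ n) ≤ 5 * s) (hs1 : 100 * s ≤ C.m) (hs2 : 512 * s ≤ K.rc) (hs3 : s ≤ 1)
    (hδ1 : 40 * δ n < s) {Rd cd Y : ℝ} (hRd : 0 < Rd) (hc : HConf Rd cd Y (ps1 C δ N k p ψn s n))
    (hB : 2 * (Rd + K.rc) + C.Ld + 200 ≤ C.B) (hX22 : 2 ≤ K.X2)
    (hi5 : ∀ z ∈ HH, ps1 C δ N k p ψn s n z ∈ Bf (lb s (δ n) / 2) K.rd → K.X5 ≤ ‖z‖)
    (hn6 : ∀ z ∈ HH, K.X6 ≤ ‖z‖ → ps1 C δ N k p ψn s n z ∈ Bf (lb s (δ n) / 2) (K.rd / 2))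
    {r₁ : ℝ} (hr₁ : 2 * K.r ≤ r₁) (hδr : 3 * H446.G.dl (δ n) ≤ r₁)
    (hmk : MkAll (C.T + 1) (C.R + 1) Rd cd Y K.X1 K.X3 K.X4 K.X5 K.X6 K.rf (K.rc / 2) K.rd K.h₁
      K.a₀ K.b₀ K.m K.t₁ K.κ₀ r₁) :
    ∃ O : Obj, CxM C K δ N k p S ψn s n A j c O ∧
      (H653.St.sg c * (O.x₂ - lb s (δ n) / 2) < 0 → Cx C K δ N k p S ψn s n A j c O) := by
  have hdl : H446.G.dl (δ n) ≤ δ n := by
    unfold H446.G.dl
    refine div_le_self hδ.le ?_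
    rw [Real.one_le_sqrt]
    norm_num
  have hdl0 := H446.G.dl_pos hδ
  have hrc := hOk.rc0
  have hrc2 := hOk.rcf
  have hCst := hOk.cst
  have hh1b := hOk.h1c
  have hr4 := hOk.rrc
  have hr5 := hOk.rh1
  have hr := hOk.r0
  have hκ1 := hOk.κκ
  have hS' := hS
  unfold SatH at hS'
  have hlb0 : 0 < lb s (δ n) := hS'.hℓ
  haveI := H397.K.finite_idx (p := p n) (k := k n) (S := S n) (A := A) (j := j) (c := c)
    (ρ := rS s (δ n)) (R := rR K.r (δ n)) hδ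
  have hX3R : 8 * (C.R + 1) ≤ K.X3 := hOk.X1R.trans hOk.X13
  have hX1p : 0 < K.X1 := by linarith [hOk.X1R, hOk.R0]
  have hX3T : 64 * (C.T + 1) ≤ K.X3 ^ 2 := by
    have h1 := hOk.X1T
    have h2 : K.X1 ^ 2 ≤ K.X3 ^ 2 := by
      have := hOk.X13
      gcongr
    linarith
  have hup : ∀ z ∈ Bf (lb s (δ n) / 2) K.rc, 3 * H446.G.dl (δ n) < z.im →
      z ∈ U1 C K δ N k p S ψn s n A j c Th := fun z hz hz2 =>
    hS'.flat_up (X2 := K.X2) (rc := K.rc) hX3R hX3T hOk.κ3 (by linarith) hOk.X12 hX22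
      hOk.xB3 hfar2 hz hz2
  have hfl : ∀ z ∈ Bf (lb s (δ n) / 2) (K.rc / 2),
      (z ∈ P1 C K δ N k p S ψn s n A j c Th ↔ 0 < z.im) := fun z hz =>
    fl_box hS' hrc2 (by linarith) hup hz
  -- the mark
  have hmk' := hmk (ε := K.ε) (e := K.e) (ν := K.ν) (by linarith [hCst.g2, hCst.he, hCst.hν])
    (by linarith [hCst.g2, hCst.he, hCst.hν, hCst.hε]) hCst.hν
    (by linarith [hCst.g2, hCst.he, hCst.hν, hCst.hε]) hc hS'.drv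
    hS'.flt (fun z hz hzb => bf_mono (show K.rc / 8 ≤ K.rc / 2 / 2 by linarith) (hnear4 z hz hzb))
    hi5 hn6 hS'.sit hS'.nc2 hfl (by linarith) hr₁ hS'.h40 hδr
  obtain ⟨sm, hsm, Xb, Kb, q, x₂, y1, y2, y3, y4, y5, y6, y7, hMk⟩ := hmk'
  rw [show K.rc / 2 / 2 = K.rc / 4 by ring] at y1 hMk
  obtain ⟨e', Km, hIs⟩ := hMk.exists_mark
  have he' : e' ∉ Bf (lb s (δ n) / 2) (K.rc / 4) := by
    intro h1
    have h2 := hMk.far e' h1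
    have h3 := mem_closedBall.1 (hIs.small hIs.e_mem)
    linarith
  -- the shape
  obtain ⟨nc, pc, Sc, Bm, i, x, P, te, hP, hShD, -⟩ := H632G.shape_in (C := C) (rc := K.rc)
    (Rm := Rd + K.rc) (s := s) (δ := δ n) hOk.sm hs hs1 hs3 hδ
    (by linarith) (by linarith) hB hS'.sit.od hfl (fun u hu => u_bdd hS hnear4 hrc hc hu)
    hIs.fr he'
  refine ⟨⟨κ', Th, Gt, x₁, sm, Kb, Xb, q, x₂, e', Km, te, nc, pc, Sc, Bm, i, x, P⟩, ?_, ?_⟩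
  · exact
    { fin := hfin
      sat := hS
      te := hTe
      far2 := hfar2
      near4 := hnear4
      hup := hup
      fl := hfl
      lb1 := hlb1
      s1 := hs1
      s2 := hs2
      δ1 := hδ1
      sm1 := hsm.1
      sm2 := hsm.2
      hmk := hMk
      x₂_mem := y1
      x₂_eq := y2
      x₂_far := y3
      Xb_eq := y4
      q_D := y5
      q_im1 := y6
      q_im2 := y7 }
  · intro hx
    exact
    { fin := hfin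
      sat := hS
      te := hTe
      far2 := hfar2
      near4 := hnear4
      hup := hup
      fl := hfl
      lb1 := hlb1
      s1 := hs1
      s2 := hs2
      δ1 := hδ1
      sm1 := hsm.1
      sm2 := hsm.2
      hmk := hMk
      x₂_mem := y1
      x₂_eq := y2
      x₂_far := y3
      Xb_eq := y4
      q_D := y5
      q_im1 := y6
      q_im2 := y7
      x₂_side := hx
      isMk := hIs
      e'_far := he'
      shd := hShD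
      fam := hP }

end

end Vale.Agent.P167.H704.Shp
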